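import Vale.Agent.P148.DiscQuad
import Vale.Agent.P148.DDich
import Vale.Agent.P148.DSymm
import Vale.Agent.P148.DChain
import Vale.Agent.P148.DHex
import Vale.Agent.P148.DFkg
import Vale.Agent.P148.Harris
import Vale.Agent.P148.Appr
import Vale.Agent.P148.Modulus2
import Vale.Agent.P148.Trig
import Vale.Agent.P148.Third

/-!
# P148: explicit bounds for all quads in a disc, at every scale
-/

open MeasureTheory Set Metric Topology Filter ProbabilityTheory P148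
open scoped ENNReal NNReal

universe u

/-- Quads whose domain is a disc: existence for all angles, the modulus, and explicit two-sided
bounds for the crossing probability, valid for every intensity, in terms of the angles and in
terms of the modulus only. -/
theorem Vale.Agent.Results.P148.DiscQuads.result :
    (∀ (z₀ : ℂ) (R θ₀ θ₁ θ₂ θ₃ : ℝ), 0 < R → θ₀ < θ₁ → θ₁ < θ₂ → θ₂ < θ₃ →
      θ₃ < θ₀ + 2 * Real.pi → ∃ Q : Quad, Q.IsDisc z₀ R θ₀ θ₁ θ₂ θ₃) ∧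
    ∀ (Q : Quad) (z₀ : ℂ) (R θ₀ θ₁ θ₂ θ₃ : ℝ), 0 < R → θ₀ < θ₁ → θ₁ < θ₂ → θ₂ < θ₃ →
      θ₃ < θ₀ + 2 * Real.pi → Q.IsDisc z₀ R θ₀ θ₁ θ₂ θ₃ →
      (∃ φ : ℂ → ℂ, Q.IsUniformizer φ (xr (θ₁ - θ₀) (θ₂ - θ₁) (θ₃ - θ₂))) ∧
      ∀ (φ : ℂ → ℂ) (x : ℝ), Q.IsUniformizer φ x →
        (x = xr (θ₁ - θ₀) (θ₂ - θ₁) (θ₃ - θ₂) ∧ 0 < x ∧ x < 1) ∧
        ∀ (Ω : Type u) [MeasurableSpace Ω] (P : Measure Ω) [IsProbabilityMeasure P]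
          (S : Ω → Set Pt) (lam : ℝ≥0), 0 < lam → IsColouredPoisson P S lam →
          (∀ k : ℕ, min (θ₂ - θ₁) (θ₀ + 2 * Real.pi - θ₃) ≤ k * min (θ₁ - θ₀) (θ₃ - θ₂) →
            (1 / 4) ^ k ≤ (P {ω | Q.Cross 0 2 (blackRegion (S ω))}).toReal) ∧
          (∀ k : ℕ, min (θ₁ - θ₀) (θ₃ - θ₂) ≤ k * min (θ₂ - θ₁) (θ₀ + 2 * Real.pi - θ₃) →
            (P {ω | Q.Cross 0 2 (blackRegion (S ω))}).toReal ≤ 1 - (1 / 4) ^ k) ∧
          (4 : ℝ) ^ (-(Real.pi / x)) ≤ (P {ω | Q.Cross 0 2 (blackRegion (S ω))}).toReal ∧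
          (P {ω | Q.Cross 0 2 (blackRegion (S ω))}).toReal ≤
            1 - (4 : ℝ) ^ (-(Real.pi / (1 - x))) ∧
          (θ₁ = θ₀ + Real.pi / 3 → θ₂ = θ₀ + 2 * Real.pi / 3 → θ₃ = θ₀ + Real.pi →
            x = 1 / 3 ∧
            1 / 3 ≤ (P {ω | Q.Cross 0 2 (blackRegion (S ω))}).toReal ∧
            (P {ω | Q.Cross 0 2 (blackRegion (S ω))}).toReal ≤ 1 / 2 ∧
            |(P {ω | Q.Cross 0 2 (blackRegion (S ω))}).toReal - cardy x| ≤ 9 / 100) := by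
  have hDi : DichStmt.{u} := ddich discQuad
  have hSy : SymmStmt.{u} := dsymm
  have hKi : KiteStmt.{u} := kite hDi hSy
  have hF : FKGStmt.{u} := fkg_of harris
  have hCh : ChainStmt.{u} := chain (glue hDi) (basic hDi hKi hF appr) hF appr
  have hHex : HexStmt.{u} := hex hDi hKi hSy hF appr
  refine ⟨discQuad, ?_⟩
  intro Q z₀ R θ₀ θ₁ θ₂ θ₃ hR h01 h12 h23 h30 hQ
  refine ⟨unif Q z₀ R θ₀ θ₁ θ₂ θ₃ hR h01 h12 h23 h30 hQ, ?_⟩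
  intro φ x hφ
  obtain rfl := modulus Q z₀ R θ₀ θ₁ θ₂ θ₃ hR h01 h12 h23 h30 hQ φ x hφ
  obtain ⟨t1, t2, -, -⟩ := trig (θ₁ - θ₀) (θ₂ - θ₁) (θ₃ - θ₂) (θ₀ + 2 * Real.pi - θ₃)
    (sub_pos.2 h01) (sub_pos.2 h12) (sub_pos.2 h23) (sub_pos.2 h30) (by ring)
  refine ⟨⟨rfl, t1, t2⟩, ?_⟩
  intro Ω _ P _ S lam hlam h
  obtain ⟨a1, a2, a3, a4, a5⟩ := disc_main hDi hCh hHex trig cardyThird hlam h hR h01 h12 h23 h30 hQ
  refine ⟨a1, a2, a3, a4, fun e1 e2 e3 => ?_⟩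
  obtain ⟨b1, b2, b3, b4⟩ := a5 e1 e2 e3
  refine ⟨b1, b2, b3, ?_⟩
  rw [b1]
  exact b4
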