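import Vale.Agent.P148.TEvenH
import Vale.Agent.P148.TBlock
import Vale.Agent.P148.TReg
import Vale.Agent.P148.TSix
import Vale.Agent.P148.TKrew
import Vale.Agent.P148.TKrew2
import Vale.Agent.P148.TQuen
import Vale.Agent.P148.TMeet
import Vale.Agent.P148.TMeetD
import Vale.Agent.P148.Harris
import Vale.Agent.P148.Appr

/-!
# P148: `2n` marked points on the boundary of a Jordan domain. The law of the black connections
between the odd arcs is the Kreweras complement of the law of the black connections between the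
even arcs, at every scale, annealed and quenched; the mean numbers of classes; six equal arcs
-/

open MeasureTheory Set Metric Topology Filter ProbabilityTheory P148
open scoped ENNReal NNReal

universe u

/-- Every Jordan domain with `2n` marked boundary points, at every scale: the pattern of the white
connections of the odd arcs is the Kreweras complement of the pattern of the black connections of
the even arcs; the same in law for black and black, annealed and quenched; the numbers of classes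
add up to `n + 1`, and so do their means for black; six arcs; equal arcs of a disc. -/
theorem Vale.Agent.Results.P148.EvenArcs.result :
    ∀ (Ω : Type u) [MeasurableSpace Ω] (P : Measure Ω) [IsProbabilityMeasure P]
      (S : Ω → Set Pt) (lam : ℝ≥0), 0 < lam → IsColouredPoisson P S lam →
    (∀ n : ℕ, 1 ≤ n → ∀ J : Gon n,
      (∀ᵐ ω ∂P, J.pattern 1 (whiteRegion (S ω)) = krew (J.pattern 0 (blackRegion (S ω)))) ∧
      (∀ A : Set (Fin n → Fin n → Prop),
        NullMeasurableSet {ω | J.pattern 1 (blackRegion (S ω)) ∈ A} P ∧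
        NullMeasurableSet {ω | krew (J.pattern 0 (blackRegion (S ω))) ∈ A} P ∧
        P {ω | J.pattern 1 (blackRegion (S ω)) ∈ A} =
          P {ω | krew (J.pattern 0 (blackRegion (S ω))) ∈ A} ∧
        P⟦{ω | J.pattern 1 (blackRegion (S ω)) ∈ A} | posSigma S⟧ =ᵐ[P]
          P⟦{ω | krew (J.pattern 0 (blackRegion (S ω))) ∈ A} | posSigma S⟧) ∧
      (∀ᵐ ω ∂P, J.classes 0 (blackRegion (S ω)) + J.classes 1 (whiteRegion (S ω)) = n + 1) ∧
      (∀ c, AEStronglyMeasurable (fun ω => (J.classes c (blackRegion (S ω)) : ℝ)) P) ∧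
      ∫ ω, (J.classes 0 (blackRegion (S ω)) : ℝ) ∂P +
        ∫ ω, (J.classes 1 (blackRegion (S ω)) : ℝ) ∂P = n + 1 ∧
      ∀ᵐ ω ∂P, (P[fun ω => (J.classes 0 (blackRegion (S ω)) : ℝ) | posSigma S]) ω +
        (P[fun ω => (J.classes 1 (blackRegion (S ω)) : ℝ) | posSigma S]) ω = n + 1) ∧
    (∀ J : Gon 3,
      (P {ω | J.Cross 0 2 (blackRegion (S ω))}).toReal +
        (P {ω | J.Cross 2 4 (blackRegion (S ω))}).toReal +
        (P {ω | J.Cross 4 0 (blackRegion (S ω))}).toReal +
        (P {ω | J.Cross 1 3 (blackRegion (S ω))}).toReal +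
        (P {ω | J.Cross 3 5 (blackRegion (S ω))}).toReal +
        (P {ω | J.Cross 5 1 (blackRegion (S ω))}).toReal =
      2 + (P {ω | J.Cross 0 2 (blackRegion (S ω)) ∧ J.Cross 2 4 (blackRegion (S ω)) ∧
          J.Cross 4 0 (blackRegion (S ω))}).toReal +
        (P {ω | J.Cross 1 3 (blackRegion (S ω)) ∧ J.Cross 3 5 (blackRegion (S ω)) ∧
          J.Cross 5 1 (blackRegion (S ω))}).toReal) ∧
    (∀ n : ℕ, 1 ≤ n → ∀ (J : Gon n) (z₀ : ℂ) (R θ : ℝ), 0 < R → (∀ z, J.H z = z₀ + R * z) →
      (∀ i, J.t i = θ + i * (Real.pi / n)) →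
      ∫ ω, (J.classes 0 (blackRegion (S ω)) : ℝ) ∂P = (n + 1) / 2) ∧
    (∀ (J : Gon 3) (z₀ : ℂ) (R θ : ℝ), 0 < R → (∀ z, J.H z = z₀ + R * z) →
      (∀ i, J.t i = θ + i * (Real.pi / 3)) →
      ∃ p : ℝ, 2 * Real.cos (4 * Real.pi / 9) ≤ p ∧
        (∀ i, (P {ω | J.Cross i (i + 2) (blackRegion (S ω))}).toReal = p) ∧
        3 * p = 1 + (P {ω | J.Cross 0 2 (blackRegion (S ω)) ∧ J.Cross 2 4 (blackRegion (S ω)) ∧
          J.Cross 4 0 (blackRegion (S ω))}).toReal ∧
        p ^ 3 ≤ (P {ω | J.Cross 0 2 (blackRegion (S ω)) ∧ J.Cross 2 4 (blackRegion (S ω)) ∧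
          J.Cross 4 0 (blackRegion (S ω))}).toReal) := by
  intro Ω _ P _ S lam hlam h
  have hM : MeetStmt := meet sqMeet
  have hB : BlockStmt.{u} := block (det hM)
  have hm := TReg.measurable_blocks
  have hK : KrewStmt.{u} := krewLaw (krewDet hM)
  have hQ : QuenStmt.{u} := quen_of hm hB
  refine ⟨fun n hn J => ?_, fun J => even_six (six hB) hlam h J,
    fun n hn J z₀ R θ hR hH ht => even_regular (regular hB) hlam h hn J z₀ R θ hR hH ht,
    fun J z₀ R θ hR hH ht => even_hexagon (hexagon (six hB) (fkg_of harris) appr) hlam h J z₀ R θ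
      hR hH ht⟩
  obtain ⟨k1, k2⟩ := even_krew hK hlam h hn J
  obtain ⟨c1, c2, c3, c4⟩ := even_count hm hB hQ hlam h hn J
  exact ⟨k1, k2, c1, c2, c3, c4⟩
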