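import Vale.Agent.P148.Quenched
import Vale.Agent.P148.Ex.Model

/-!
# P148: critical Voronoi percolation, exact duality for all quads (annealed and quenched), and the
crossing probability of every symmetric quad
-/

open MeasureTheory Set Metric Topology Filter ProbabilityTheory P148
open scoped ENNReal NNReal

universe u

/-- (0) The model exists. (1) Exact duality for every Jordan quad at every scale: almost surely the
black cells cross from `ab` to `cd` iff the white cells do not cross from `bc` to `da`, the two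
probabilities (annealed, and conditional on the positions of the points) add up to one, and they
are `1/2` for symmetric quads. (2) For symmetric quads `x = 1/2` and the limit is Cardy's
`F(x)`. -/
theorem Vale.Agent.Results.P148.SymmetricQuads.result :
    (∀ lam : ℝ≥0, ∃ (Ω : Type) (_ : MeasurableSpace Ω) (P : Measure Ω)
      (_ : IsProbabilityMeasure P) (S : Ω → Set Pt), IsColouredPoisson P S lam) ∧
    (∀ (Ω : Type u) [MeasurableSpace Ω] (P : Measure Ω) [IsProbabilityMeasure P]
      (S : Ω → Set Pt) (lam : ℝ≥0), 0 < lam → IsColouredPoisson P S lam → ∀ Q : Quad,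
      (∀ᵐ ω ∂P, Q.Cross 0 2 (blackRegion (S ω)) ↔ ¬ Q.Cross 1 3 (whiteRegion (S ω))) ∧
      NullMeasurableSet {ω | Q.Cross 0 2 (blackRegion (S ω))} P ∧
      NullMeasurableSet {ω | Q.Cross 1 3 (blackRegion (S ω))} P ∧
      P {ω | Q.Cross 0 2 (blackRegion (S ω))} + P {ω | Q.Cross 1 3 (blackRegion (S ω))} = 1 ∧
      (posSigma S ≤ ‹MeasurableSpace Ω› ∧
        ∀ᵐ ω ∂P,
          (P[{ω | Q.Cross 0 2 (blackRegion (S ω))}.indicator (fun _ => (1 : ℝ)) |
            posSigma S]) ω +
          (P[{ω | Q.Cross 1 3 (blackRegion (S ω))}.indicator (fun _ => (1 : ℝ)) |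
            posSigma S]) ω = 1) ∧
      (Q.SelfDual → P {ω | Q.Cross 0 2 (blackRegion (S ω))} = 1 / 2)) ∧
    (∀ (Q : Quad) (φ : ℂ → ℂ) (x : ℝ), Q.IsUniformizer φ x → Q.SelfDual →
      x = 1 / 2 ∧ cardy x = 1 / 2 ∧
      ∀ (Ω : ℝ → Type u) [∀ ε, MeasurableSpace (Ω ε)] (P : ∀ ε, Measure (Ω ε))
        [∀ ε, IsProbabilityMeasure (P ε)] (S : ∀ ε, Ω ε → Set Pt),
        (∀ ε > 0, IsColouredPoisson (P ε) (S ε) (Real.toNNReal (ε ^ (-2 : ℤ)))) →
        Tendsto (fun ε => (P ε {ω | Q.Cross 0 2 (blackRegion (S ε ω))}).toReal) (𝓝[>] 0)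
          (𝓝 (cardy x))) := by
  refine ⟨exists_model, ?_, ?_⟩
  · intro Ω _ P _ S lam hlam h Q
    obtain ⟨h1, h2, h3, h4, h5⟩ := duality kPoint2 colours2 hlam h Q
    exact ⟨h1, h2, h3, h4, ⟨posSigma_le h, quenched hlam h Q⟩, h5⟩
  · intro Q φ x hφ hQ
    exact symmetric_limit kPoint2 colours2 Q φ x hφ hQ
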