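import Vale.Agent.P148.TQuad
import Vale.Agent.P148.TNB
import Vale.Agent.P148.TGen
import Vale.Agent.P148.TMeet
import Vale.Agent.P148.TMeetD
import Vale.Agent.P148.TLim
import Vale.Agent.P148.Three
import Vale.Agent.P148.TExt
import Vale.Agent.P148.TExcl

/-!
# P148: three arcs. Exact conformal invariance of the three arc crossing in every Jordan domain, at
every scale, annealed and quenched; tripods and the event of Watts in every Jordan quad
-/

open MeasureTheory Set Metric Topology Filter ProbabilityTheory P148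
open scoped ENNReal NNReal

universe u

/-- Every Jordan domain with three marked points (the first three corners; the fourth corner is an
arbitrary point of the third arc): almost surely exactly one colour joins the three arcs, and the
probability is one half, annealed and quenched. Every Jordan quad: the identities between the
tripod probabilities and the probability that black joins all four arcs. -/
theorem Vale.Agent.Results.P148.ThreeArcs.result :
    ∀ (Ω : Type u) [MeasurableSpace Ω] (P : Measure Ω) [IsProbabilityMeasure P]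
      (S : Ω → Set Pt) (lam : ℝ≥0), 0 < lam → IsColouredPoisson P S lam → ∀ Q : Quad,
    (∀ᵐ ω ∂P, Q.Touch [Q.arc 0, Q.arc 1, Q.arc 2 ∪ Q.arc 3] (blackRegion (S ω)) ↔
      ¬ Q.Touch [Q.arc 0, Q.arc 1, Q.arc 2 ∪ Q.arc 3] (whiteRegion (S ω))) ∧
    NullMeasurableSet {ω | Q.Touch [Q.arc 0, Q.arc 1, Q.arc 2 ∪ Q.arc 3] (blackRegion (S ω))} P ∧
    P {ω | Q.Touch [Q.arc 0, Q.arc 1, Q.arc 2 ∪ Q.arc 3] (blackRegion (S ω))} = 1 / 2 ∧
    (∀ᵐ ω ∂P, (P[{ω | Q.Touch [Q.arc 0, Q.arc 1, Q.arc 2 ∪ Q.arc 3]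
      (blackRegion (S ω))}.indicator (fun _ => (1 : ℝ)) | posSigma S]) ω = 1 / 2) ∧
    (∀ i : Fin 4, NullMeasurableSet {ω | Q.Touch [Q.arc i, Q.arc (i + 1), Q.arc (i + 2)]
      (blackRegion (S ω))} P) ∧
    (∀ i : Fin 4, P {ω | Q.Touch [Q.arc i, Q.arc (i + 1), Q.arc (i + 2)] (blackRegion (S ω))} =
      P {ω | Q.Touch [Q.arc (i + 2), Q.arc (i + 3), Q.arc i] (blackRegion (S ω))}) ∧
    P {ω | Q.Touch [Q.arc 0, Q.arc 1, Q.arc 2] (blackRegion (S ω))} +
      P {ω | Q.Touch [Q.arc 1, Q.arc 2, Q.arc 3] (blackRegion (S ω))} =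
        1 / 2 + P {ω | Q.Touch [Q.arc 0, Q.arc 1, Q.arc 2, Q.arc 3] (blackRegion (S ω))} ∧
    (∀ᵐ ω ∂P,
      (P[{ω | Q.Touch [Q.arc 0, Q.arc 1, Q.arc 2] (blackRegion (S ω))}.indicator
        (fun _ => (1 : ℝ)) | posSigma S]) ω =
      (P[{ω | Q.Touch [Q.arc 2, Q.arc 3, Q.arc 0] (blackRegion (S ω))}.indicator
        (fun _ => (1 : ℝ)) | posSigma S]) ω ∧
      (P[{ω | Q.Touch [Q.arc 1, Q.arc 2, Q.arc 3] (blackRegion (S ω))}.indicator
        (fun _ => (1 : ℝ)) | posSigma S]) ω =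
      (P[{ω | Q.Touch [Q.arc 3, Q.arc 0, Q.arc 1] (blackRegion (S ω))}.indicator
        (fun _ => (1 : ℝ)) | posSigma S]) ω ∧
      (P[{ω | Q.Touch [Q.arc 0, Q.arc 1, Q.arc 2] (blackRegion (S ω))}.indicator
        (fun _ => (1 : ℝ)) | posSigma S]) ω +
      (P[{ω | Q.Touch [Q.arc 1, Q.arc 2, Q.arc 3] (blackRegion (S ω))}.indicator
        (fun _ => (1 : ℝ)) | posSigma S]) ω =
      1 / 2 + (P[{ω | Q.Touch [Q.arc 0, Q.arc 1, Q.arc 2, Q.arc 3]
        (blackRegion (S ω))}.indicator (fun _ => (1 : ℝ)) | posSigma S]) ω) ∧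
    (∀ᵐ ω ∂P, Q.Touch [Q.arc 0, Q.arc 1, Q.arc 2, Q.arc 3] (blackRegion (S ω)) ↔
      Q.Cross 0 2 (blackRegion (S ω)) ∧ Q.Cross 1 3 (blackRegion (S ω))) ∧
    P {ω | Q.Cross 0 2 (blackRegion (S ω))} * P {ω | Q.Cross 1 3 (blackRegion (S ω))} ≤
      P {ω | Q.Touch [Q.arc 0, Q.arc 1, Q.arc 2, Q.arc 3] (blackRegion (S ω))} := by
  intro Ω _ P _ S lam hlam h Q
  have hM : MeetStmt := meet sqMeet
  exact three_arcs (tri nb hM (three_of hM lim) (excl ext) gen) hM (fkg_of harris) appr hlam h Q
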